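import Mathlib
import Vale.Agent.Lib.P302.helper14.MultiQ

/-!
# Chunked form of the layered triple search

The layered search of `helper14.Layer` is split into small pieces: for a chunk of states of one
layer, `stepOK` checks that no state is empty and that every child state occurs in the next layer
(a sorted walk through both lists). Soundness is inherited from `triPart_child`,
`children_good` and `mem_mergeAll`.
-/

namespace Vale.Agent.Lib.P302.helper26

open Vale.Agent.Lib.P302.helper14

/-- Sorted walk: every state of the first list occurs in the second list (the first argument is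
fuel). -/
def subWalk : ℕ → List (List ℕ) → List (List ℕ) → Bool
  | 0, xs, _ => xs.isEmpty
  | _ + 1, [], _ => true
  | _ + 1, _ :: _, [] => false
  | f + 1, x :: xs, y :: ys =>
    match lcmp x y with
    | Ordering.eq => subWalk f xs (y :: ys)
    | Ordering.gt => subWalk f (x :: xs) ys
    | Ordering.lt => false

theorem subWalk_sound : ∀ (f : ℕ) (xs ys : List (List ℕ)), subWalk f xs ys = true →
    ∀ s ∈ xs, s ∈ ys
  | 0, xs, ys, h, s, hs => by
    unfold subWalk at h
    rw [List.isEmpty_iff] at h
    rw [h] at hs
    simp at hs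
  | _ + 1, [], ys, h, s, hs => by simp at hs
  | _ + 1, x :: xs, [], h, s, hs => by
    unfold subWalk at h
    simp at h
  | f + 1, x :: xs, y :: ys, h, s, hs => by
    unfold subWalk at h
    cases hc : lcmp x y with
    | eq =>
      rw [hc] at h
      simp only at h
      have hxy : x = y := lcmp_eq hc
      rcases List.mem_cons.mp hs with rfl | hs'
      · rw [hxy]
        exact List.mem_cons_self
      · exact subWalk_sound f xs (y :: ys) h s hs'
    | gt =>
      rw [hc] at h
      simp only at h
      exact List.mem_cons_of_mem _ (subWalk_sound f (x :: xs) ys h s hs)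
    | lt =>
      rw [hc] at h
      simp at h

/-- Check for one chunk of a layer: no state of the chunk is empty, and every child of a state of
the chunk occurs in `next`. -/
def stepOK (L fuel : ℕ) (chunk next : List (List ℕ)) : Bool :=
  !(chunk.any List.isEmpty) && subWalk fuel (stepLayer L chunk) next

theorem stepOK_sound {L fuel : ℕ} {chunk next : List (List ℕ)}
    (h : stepOK L fuel chunk next = true)
    (hnext : ∀ s ∈ next, ¬ TriPart L (s : Multiset ℕ)) :
    ∀ s ∈ chunk, ¬ TriPart L (s : Multiset ℕ) := by
  intro s hs hT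
  unfold stepOK at h
  rw [Bool.and_eq_true] at h
  obtain ⟨hne, hw⟩ := h
  cases s with
  | nil =>
    have : chunk.any List.isEmpty = true := List.any_eq_true.mpr ⟨[], hs, rfl⟩
    rw [this] at hne
    simp at hne
  | cons x rest =>
    obtain ⟨b, hb, c', hmf, hfit, hc'mem, hT'⟩ := triPart_child hT
    have hm0 := minList_le rest x
    obtain ⟨s', hs'T, hs'⟩ := children_good (L := L) (x := x) (m0 := minList x rest)
      (rest := rest) hm0.2 rest none none (fun b hb => hb) (fun lb lc h => by simp at h)
      (fun p c hp _ => by simp at hp) b hb c' hmf hT'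
    have hchild : s' ∈ childrenOf L (x :: rest) := by
      unfold childrenOf
      rcases hs' with h1 | ⟨lb, lc, h1, -⟩
      · exact h1
      · simp at h1
    have hstep : s' ∈ stepLayer L chunk := by
      unfold stepLayer
      exact mem_mergeAll _ _ _ ⟨_, List.mem_map.mpr ⟨_, hs, rfl⟩, hchild⟩
    exact hnext s' (subWalk_sound _ _ _ hw s' hstep) hs'T

theorem flatten_no {L : ℕ} {chunks : List (List (List ℕ))}
    (h : ∀ c ∈ chunks, ∀ s ∈ c, ¬ TriPart L (s : Multiset ℕ)) :
    ∀ s ∈ chunks.flatten, ¬ TriPart L (s : Multiset ℕ) := by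
  intro s hs
  obtain ⟨c, hc, hsc⟩ := List.mem_flatten.mp hs
  exact h c hc s hsc

/-- If all items are at least a quarter of the capacity, fewer than four of them are exactly a
quarter, and the lightest `3 (n - 2m)` items cannot be split into triples of total size at most
the capacity, then the items cannot be packed into `m` bins. -/
theorem not_packable_of_noTri {l : List ℕ} {L m : ℕ} (hsorted : sortedDesc l = true) (hL : 0 < L)
    (hbig : ∀ k ∈ l, L ≤ 4 * k) (hq : l.count (L / 4) < 4)
    (hlen : 3 * (l.length - 2 * m) ≤ l.length)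
    (hno : ¬ TriPart L ((l.drop (l.length - 3 * (l.length - 2 * m)) : List ℕ) : Multiset ℕ)) :
    ¬ PackableNat l L m := by
  intro hp
  obtain ⟨j, U, hU, hc, hT⟩ := exists_triples_q hL hbig hp
  have hcount : 4 * j ≤ l.count (L / 4) := by
    have h1 : Multiset.replicate (4 * j) (L / 4) ≤ (l : Multiset ℕ) :=
      le_trans (Multiset.le_add_right _ _) hU
    have h2 := Multiset.count_le_of_le (L / 4) h1
    rw [Multiset.count_replicate_self, Multiset.coe_count] at h2
    exact h2
  have hj : j = 0 := by omega
  subst hj
  simp only [Nat.mul_zero, Multiset.replicate_zero, zero_add, Nat.sub_zero] at hU hc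
  have hsorted' : l.Pairwise (· ≥ ·) := sortedDesc_sound hsorted
  obtain ⟨U2, hU2, hc2, hT2⟩ :=
    QTri.drop (l.length - 3 * (l.length - 2 * m)) l hsorted' (by omega) ⟨U, hU, hc, hT⟩
  have hUeq : U2 = ((l.drop (l.length - 3 * (l.length - 2 * m)) : List ℕ) : Multiset ℕ) := by
    apply Multiset.eq_of_le_of_card_le hU2
    simp only [Multiset.coe_card, List.length_drop]
    omega
  rw [hUeq] at hT2
  exact hno hT2

/-- Certificate theorem: integer sizes `l` with capacity `L` that cannot be packed into `m` bins,
together with a fractional solution `zs` of value `V / D`, give `OPT - LP ≥ m + 1 - V / D`. -/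
theorem gap_of_not_packable (l : List ℕ) (L m D : ℕ) (zs : List (List ℕ × ℕ)) (hL : 0 < L)
    (hD : 0 < D) (hle : ∀ k ∈ l, 0 < k ∧ k ≤ L) (hpack : ¬ PackableNat l L m)
    (hfrac : fracOK l L D zs = true) :
    IsInstance (ratInst l L) ∧
      ((m : ℝ) + 1) - (((zs.map Prod.snd).sum : ℕ) : ℝ) / D
        ≤ (OPT (ratInst l L) : ℝ) - LP (ratInst l L) := by
  have hI := ratInst_isInstance hL hle
  refine ⟨hI, ?_⟩
  have h1 : m + 1 ≤ OPT (ratInst l L) :=
    opt_ge hI (fun hp => hpack (packableNat_of_packable hL hp))
  have h2 := lp_le (isFracSol_of_fracOK hL hD hfrac)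
  rw [ratSol_value] at h2
  have h1' : ((m : ℝ) + 1) ≤ (OPT (ratInst l L) : ℝ) := by exact_mod_cast h1
  have h2' : LP (ratInst l L) ≤ (((zs.map Prod.snd).sum : ℕ) : ℝ) / D := by
    have e : ((((((zs.map Prod.snd).sum : ℕ) : ℚ) / D : ℚ)) : ℝ)
        = (((zs.map Prod.snd).sum : ℕ) : ℝ) / D := by
      rw [Rat.cast_div, Rat.cast_natCast, Rat.cast_natCast]
    rw [← e]
    exact h2
  linarith

end Vale.Agent.Lib.P302.helper26
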