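import Mathlib
import Vale.Agent.Lib.P302.helper26.Chunk

/-!
# Chunked layered search with size pruning

A multiset that splits into triples of total size at most `L` has total size at most a third of
its cardinality times `L`. States violating this bound are dropped from the layers.
-/

namespace Vale.Agent.Lib.P302.helper26

open Vale.Agent.Lib.P302.helper14

theorem triPart_sum_le {L : ℕ} {M : Multiset ℕ} (h : TriPart L M) :
    3 * M.sum ≤ Multiset.card M * L := by
  obtain ⟨T, hT, rfl⟩ := h
  induction T using Multiset.induction_on with
  | empty => simp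
  | cons τ T ih =>
    have h1 := hT τ (Multiset.mem_cons_self _ _)
    have h2 := ih (fun τ' hτ' => hT τ' (Multiset.mem_cons_of_mem hτ'))
    rw [Multiset.sum_cons, Multiset.sum_add, Multiset.card_add, h1.1]
    have h3 := h1.2
    calc 3 * (τ.sum + T.sum.sum) = 3 * τ.sum + 3 * T.sum.sum := by ring
      _ ≤ 3 * L + Multiset.card T.sum * L := by omega
      _ = (3 + Multiset.card T.sum) * L := by ring

/-- Size test: three times the total size of the state is at most its length times `L`. -/
def light (L : ℕ) (s : List ℕ) : Bool := Nat.ble (3 * s.sum) (s.length * L)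

theorem light_of_triPart {L : ℕ} {s : List ℕ} (h : TriPart L (s : Multiset ℕ)) :
    light L s = true := by
  have h1 := triPart_sum_le h
  rw [Multiset.sum_coe, Multiset.coe_card] at h1
  exact Nat.ble_eq_true_of_le h1

/-- Check for one chunk of a layer: no state of the chunk is empty, and every child state that
passes the size test occurs in `next`. -/
def stepOKp (L fuel : ℕ) (chunk next : List (List ℕ)) : Bool :=
  !(chunk.any List.isEmpty) && subWalk fuel ((stepLayer L chunk).filter (light L)) next

theorem stepOKp_sound {L fuel : ℕ} {chunk next : List (List ℕ)}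
    (h : stepOKp L fuel chunk next = true)
    (hnext : ∀ s ∈ next, ¬ TriPart L (s : Multiset ℕ)) :
    ∀ s ∈ chunk, ¬ TriPart L (s : Multiset ℕ) := by
  intro s hs hT
  unfold stepOKp at h
  rw [Bool.and_eq_true] at h
  obtain ⟨hne, hw⟩ := h
  cases s with
  | nil =>
    have : chunk.any List.isEmpty = true := List.any_eq_true.mpr ⟨[], hs, rfl⟩
    rw [this] at hne
    simp at hne
  | cons x rest =>
    obtain ⟨b, hb, c', hmf, hfit, hc'mem, hT'⟩ := triPart_child hT
    have hm0 := minList_le rest x
    obtain ⟨s', hs'T, hs'⟩ := children_good (L := L) (x := x) (m0 := minList x rest)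
      (rest := rest) hm0.2 rest none none (fun b hb => hb) (fun lb lc h => by simp at h)
      (fun p c hp _ => by simp at hp) b hb c' hmf hT'
    have hchild : s' ∈ childrenOf L (x :: rest) := by
      unfold childrenOf
      rcases hs' with h1 | ⟨lb, lc, h1, -⟩
      · exact h1
      · simp at h1
    have hstep : s' ∈ stepLayer L chunk := by
      unfold stepLayer
      exact mem_mergeAll _ _ _ ⟨_, List.mem_map.mpr ⟨_, hs, rfl⟩, hchild⟩
    have hfil : s' ∈ (stepLayer L chunk).filter (light L) :=
      List.mem_filter.mpr ⟨hstep, light_of_triPart hs'T⟩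
    exact hnext s' (subWalk_sound _ _ _ hw s' hfil) hs'T

end Vale.Agent.Lib.P302.helper26
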